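import Vale.Agent.N199.T

/-!
# P199 with any finite number of generators, part 2

The transcendence degree bound for a finite family of generators.
-/

set_option linter.all false

namespace P199G

open Module

variable {ι 𝕜 : Type} [Field 𝕜]

section main

open P199K (ext ext_add ext_sum ext_smul ext_mul ext_der_add ext_der_smul ext_eq_zero_iff)

variable {L : Type} [Field L] [Algebra 𝕜 L] {D : Type} [Ring D] [IsDomain D] [Algebra L D]
  [FiniteDimensional L D] {G : Type} [Fintype G] (X : Basis G L D)

/-- the generators as elements of the algebra they generate -/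
def gA (L : Type) [Field L] {D : Type} [Ring D] [Algebra L D] (x : ι → D) (k : ι) :
    Algebra.adjoin L (Set.range x) := ⟨x k, Algebra.subset_adjoin ⟨k, rfl⟩⟩

/-- if `δ` kills the matrices of the left multiplications by the generators, then the values of
its coefficientwise extension on the generators come from an inner derivation -/
theorem ext_inner (τ : D →ₗ[L] L) (hτ : ∀ u v, τ (u * v) = τ (v * u)) (h1 : τ 1 = 1)
    (δ : Derivation 𝕜 L L) (hc : ∀ g h, ext X δ (X g * X h) = 0) (x : ι → D)
    (hfr : ((finrank L (Algebra.adjoin L (Set.range x)) : ℕ) : L) ≠ 0)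
    {κ : Type} [Fintype κ] (u : Basis κ L (Algebra.adjoin L (Set.range x)))
    (ha : ∀ k i, ext u δ (gA L x k * u i) = 0) :
    ∃ z : D, ∀ k, ext X δ (x k) = z * x k - x k * z := by
  classical
  have hmul : ∀ w' : Algebra.adjoin L (Set.range x), (∀ i, ext u δ (w' * u i) = 0) →
      ∀ v, ext u δ (w' * v) = w' * ext u δ v := by
    intro w' hw v
    have h2 : w' * v = ∑ i, u.repr v i • (w' * u i) := by
      conv_lhs => rw [← u.sum_repr v, Finset.mul_sum]
      apply Finset.sum_congr rfl
      intro h _
      rw [mul_smul_comm]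
    rw [h2, ext_sum]
    have h3 : w' * ext u δ v = ∑ i, δ (u.repr v i) • (w' * u i) := by
      rw [ext, Finset.mul_sum]
      apply Finset.sum_congr rfl
      intro h _
      rw [mul_smul_comm]
    rw [h3]
    apply Finset.sum_congr rfl
    intro i _
    rw [ext_smul, hw, smul_zero, add_zero]
  let der : Algebra.adjoin L (Set.range x) → Algebra.adjoin L (Set.range x) := fun v =>
    ext u δ v - v * ext u δ 1
  have der_def : ∀ v, der v = ext u δ v - v * ext u δ 1 := fun _ => rfl
  have der_add : ∀ v w, der (v + w) = der v + der w := by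
    intro v w
    rw [der_def, der_def, der_def, ext_add, add_mul]
    abel
  have der_smul : ∀ (l : L) v, der (l • v) = δ l • v + l • der v := by
    intro l v
    rw [der_def, der_def, ext_smul, smul_sub, smul_mul_assoc]
    abel
  have der_one : der 1 = 0 := by
    rw [der_def, one_mul, sub_self]
  have der_gen : ∀ w' : Algebra.adjoin L (Set.range x), (∀ i, ext u δ (w' * u i) = 0) →
      der w' = 0 ∧ ∀ v, der (w' * v) = w' * der v := by
    intro w' hw
    refine ⟨?_, fun v => ?_⟩
    · have := hmul w' hw 1
      rw [mul_one] at this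
      rw [der_def, this, sub_self]
    · rw [der_def, der_def, hmul w' hw, mul_sub, mul_assoc]
  have der_mul : ∀ v w, der (v * w) = der v * w + v * der w := by
    have key : ∀ (v : D) (hv : v ∈ Algebra.adjoin L (Set.range x)), ∀ w,
        der (⟨v, hv⟩ * w) = der ⟨v, hv⟩ * w + ⟨v, hv⟩ * der w := by
      intro v hv
      refine Algebra.adjoin_induction
        (p := fun v hv => ∀ w, der (⟨v, hv⟩ * w) = der ⟨v, hv⟩ * w + ⟨v, hv⟩ * der w)
        ?_ ?_ ?_ ?_ hv
      · rintro _ ⟨k, rfl⟩ w
        change der (gA L x k * w) = der (gA L x k) * w + gA L x k * der w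
        rw [(der_gen _ (ha k)).1, (der_gen _ (ha k)).2, zero_mul, zero_add]
      · intro l w
        have e : (⟨algebraMap L D l, Subalgebra.algebraMap_mem _ l⟩ :
            Algebra.adjoin L (Set.range x)) = l • 1 := by
          apply Subtype.ext
          simp [Algebra.algebraMap_eq_smul_one]
        rw [e, der_smul, der_one, smul_zero, add_zero, smul_mul_assoc, smul_mul_assoc, one_mul,
          der_smul, smul_mul_assoc, one_mul]
      · intro v w hv hw h1 h2 z
        have e : (⟨v + w, Subalgebra.add_mem _ hv hw⟩ : Algebra.adjoin L (Set.range x))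
            = ⟨v, hv⟩ + ⟨w, hw⟩ := rfl
        rw [e, add_mul, der_add, h1, h2, der_add, add_mul, add_mul]
        abel
      · intro v w hv hw h1 h2 z
        have e : (⟨v * w, Subalgebra.mul_mem _ hv hw⟩ : Algebra.adjoin L (Set.range x))
            = ⟨v, hv⟩ * ⟨w, hw⟩ := rfl
        rw [e, mul_assoc, h1, h2, h1, add_mul, mul_add, mul_assoc, mul_assoc, mul_assoc]
        abel
    exact fun v w => key v.1 v.2 w
  let ψ : Algebra.adjoin L (Set.range x) →ₗ[L] D :=
    { toFun := fun v => ext X δ (v : D) - (der v : D)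
      map_add' := by
        intro v w
        rw [Subalgebra.coe_add, ext_add, der_add, Subalgebra.coe_add]
        abel
      map_smul' := by
        intro l v
        rw [Subalgebra.coe_smul, ext_smul, der_smul, Subalgebra.coe_add, Subalgebra.coe_smul,
          Subalgebra.coe_smul, RingHom.id_apply, smul_sub]
        abel }
  have ψ_def : ∀ v, ψ v = ext X δ (v : D) - (der v : D) := fun _ => rfl
  obtain ⟨z, hz⟩ := P199K.inner_of_derivation τ hτ h1 _ hfr ψ (by
    intro v w
    rw [ψ_def, ψ_def, ψ_def, Subalgebra.coe_mul, ext_mul X δ hc, der_mul, Subalgebra.coe_add,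
      Subalgebra.coe_mul, Subalgebra.coe_mul, sub_mul, mul_sub]
    abel)
  refine ⟨z, fun k => ?_⟩
  have := hz (gA L x k)
  rw [ψ_def, (der_gen _ (ha k)).1] at this
  simpa [gA] using this

/-- the transcendence degree bound -/
theorem trdeg_bound [Fintype ι] {N : ℕ} (s : Fin N → L)
    (hc : ∀ δ : Derivation 𝕜 L L, (∀ i, δ (s i) = 0) → ∀ g h, ext X δ (X g * X h) = 0)
    (τ : D →ₗ[L] L) (hτ : ∀ u v, τ (u * v) = τ (v * u)) (h1 : τ 1 = 1) (x : ι → D)
    (hgen : ∀ δ : Derivation 𝕜 L L, (∀ i, δ (s i) = 0) → (∀ k g, δ (X.repr (x k) g) = 0) →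
      δ = 0)
    (hfr : ((finrank L (Algebra.adjoin L (Set.range x)) : ℕ) : L) ≠ 0)
    {r : ℕ} (b : Fin r → L) (δ : Fin r → Derivation 𝕜 L L)
    (hδ : ∀ i j, δ i (b j) = if i = j then 1 else 0) :
    r ≤ N + finrank L D + Fintype.card ι * (finrank L (Algebra.adjoin L (Set.range x))) ^ 2 := by
  classical
  let Δ : (Fin r → L) →ₗ[L] Derivation 𝕜 L L :=
    { toFun := fun c => ∑ i, c i • δ i
      map_add' := fun c c' => by
        simp only [Pi.add_apply, add_smul, Finset.sum_add_distrib]
      map_smul' := fun l c => by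
        simp only [Pi.smul_apply, smul_eq_mul, RingHom.id_apply, Finset.smul_sum, mul_smul] }
  have hΔb : ∀ c j, Δ c (b j) = c j := by
    intro c j
    have : Δ c (b j) = ∑ i, c i • δ i (b j) := by
      change (∑ i, c i • δ i) (b j) = _
      have h0 : ((∑ i, c i • δ i : Derivation 𝕜 L L) : L → L) = ∑ i, ⇑(c i • δ i) :=
        map_sum (Derivation.coeFnAddMonoidHom (R := 𝕜) (A := L) (M := L)) _ _
      rw [h0, Finset.sum_apply]
      rfl
    rw [this, Finset.sum_eq_single j]
    · rw [hδ, if_pos rfl, smul_eq_mul, mul_one]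
    · intro i _ hij
      rw [hδ, if_neg hij, smul_zero]
    · simp
  let u := Module.finBasis L (Algebra.adjoin L (Set.range x))
  let E := (ι × Fin (finrank L (Algebra.adjoin L (Set.range x))) →
    Algebra.adjoin L (Set.range x))
  let f : (Fin r → L) →ₗ[L] (Fin N → L) × E :=
    { toFun := fun c => (fun i => Δ c (s i), fun p => ext u (Δ c) (gA L x p.1 * u p.2))
      map_add' := fun c c' => by
        rw [map_add]
        refine Prod.ext ?_ ?_
        · rfl
        · funext i
          exact ext_der_add u _ _ _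
      map_smul' := fun l c => by
        rw [map_smul]
        refine Prod.ext ?_ ?_
        · rfl
        · funext i
          exact ext_der_smul u _ _ _ }
  let K := LinearMap.ker f
  let Ψ : (Fin r → L) →ₗ[L] (ι → D) :=
    { toFun := fun c k => ext X (Δ c) (x k)
      map_add' := fun c c' => by
        rw [map_add]
        exact funext fun k => ext_der_add X _ _ _
      map_smul' := fun l c => by
        rw [map_smul]
        exact funext fun k => ext_der_smul X _ _ _ }
  let R : D →ₗ[L] (ι → D) :=
    { toFun := fun z k => z * x k - x k * z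
      map_add' := fun z z' => by
        funext k
        simp only [add_mul, mul_add, Pi.add_apply]
        abel
      map_smul' := fun l z => by
        funext k
        simp [smul_sub] }
  have hK : ∀ c ∈ K, (∀ i, Δ c (s i) = 0) ∧ ∀ k i, ext u (Δ c) (gA L x k * u i) = 0 := by
    intro c hc
    have h : f c = 0 := hc
    exact ⟨fun i => congrFun (congrArg Prod.fst h) i,
      fun k i => congrFun (congrArg Prod.snd h) (k, i)⟩
  have hinj : Function.Injective (Ψ.domRestrict K) := by
    rw [injective_iff_map_eq_zero]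
    rintro ⟨c, hcK⟩ h
    have h2 : Ψ c = 0 := h
    have h5 : Δ c = 0 := hgen _ (hK c hcK).1 fun k =>
      (ext_eq_zero_iff X _ _).1 (congrFun h2 k)
    apply Subtype.ext
    funext j
    have := hΔb c j
    rw [h5] at this
    exact this.symm
  have hrange : LinearMap.range (Ψ.domRestrict K) ≤ LinearMap.range R := by
    rintro _ ⟨⟨c, hcK⟩, rfl⟩
    obtain ⟨z, hz⟩ := ext_inner X τ hτ h1 (Δ c) (hc _ (hK c hcK).1) x hfr u (hK c hcK).2
    exact ⟨z, funext fun k => (hz k).symm⟩
  have d1 : finrank L K ≤ finrank L D := by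
    rw [← LinearMap.finrank_range_of_inj hinj]
    exact (Submodule.finrank_mono hrange).trans (LinearMap.finrank_range_le R)
  have d2 := LinearMap.finrank_range_add_finrank_ker f
  have d3 : finrank L (LinearMap.range f) ≤
      N + Fintype.card ι * (finrank L (Algebra.adjoin L (Set.range x))) ^ 2 := by
    refine (Submodule.finrank_le _).trans ?_
    rw [Module.finrank_prod, Module.finrank_fin_fun]
    have e : finrank L E = Fintype.card ι * (finrank L (Algebra.adjoin L (Set.range x))) ^ 2 := by
      rw [Module.finrank_pi_fintype]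
      simp [sq, mul_assoc]
    rw [e]
  rw [Module.finrank_fin_fun] at d2
  change finrank L (LinearMap.range f) + finrank L K = r at d2
  omega

end main

open MvPolynomial P199H

/-- The bound on the dimension of the algebra generated by the generators. -/
theorem dim_bound [Fintype ι] [PerfectField 𝕜] (h𝕜 : (2 : 𝕜) ≠ 0) {K : ℕ}
    (P : Ideal (MvPolynomial (Jm ι K) 𝕜)) [hP : P.IsPrime] (L : Type) [Field L] [Algebra 𝕜 L]
    [Algebra (MvPolynomial (Jm ι K) 𝕜 ⧸ P) L] [IsFractionRing (MvPolynomial (Jm ι K) 𝕜 ⧸ P) L]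
    [IsScalarTower 𝕜 (MvPolynomial (Jm ι K) 𝕜 ⧸ P) L]
    (φ : MvPolynomial (Jm ι K) 𝕜 →+* L)
    (hφ : ∀ p, φ p = algebraMap (MvPolynomial (Jm ι K) 𝕜 ⧸ P) L (Ideal.Quotient.mk P p))
    (hsig0 : φ sig ≠ 0) [NoZeroDivisors (Tw K L (fun i => φ (sm i)))] :
    P199K.td P ≤ (K + K) + 2 ^ (2 * K) +
      Fintype.card ι * (finrank L (Algebra.adjoin L (Set.range (gens φ)))) ^ 2 := by
  classical
  haveI : IsDomain (Tw K L (fun i => φ (sm i))) := NoZeroDivisors.to_isDomain _
  obtain ⟨b, δb, hb⟩ := P199K.exists_dual P L
  have hinj : Function.Injective (algebraMap (MvPolynomial (Jm ι K) 𝕜 ⧸ P) L) :=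
    IsFractionRing.injective _ _
  have hsig : φ sig = ∏ i : Ix K, φ (sm i) := by
    unfold sig
    rw [map_prod]
  have h2L : (2 : L) ≠ 0 := by
    intro h
    have h4 : algebraMap 𝕜 L 2 = 0 := by rw [map_ofNat]; exact h
    exact h𝕜 ((map_eq_zero_iff _ (algebraMap 𝕜 L).injective).1 h4)
  have h1 := trdeg_bound (L := L) (D := Tw K L (fun i => φ (sm i))) (G := Gam K) Tw.basis
    (N := K + K) (fun i => φ (sm (finSumFinEquiv.symm i)))
    (by
      intro δ hδ g h
      exact P199K.ext_basis_mul δ (fun i => by
        have := hδ (finSumFinEquiv i)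
        rwa [Equiv.symm_apply_apply] at this) g h)
    Tw.tau Tw.tau_mul_comm Tw.tau_one (gens φ)
    (by
      intro δ hδ hx
      have hδs : ∀ i, δ (φ (sm i)) = 0 := fun i => by
        have := hδ (finSumFinEquiv i)
        rwa [Equiv.symm_apply_apply] at this
      have hδsig : δ (φ sig) = 0 := by
        refine P199K.der_adjoin δ (Set.range fun i => φ (sm i))
          (by rintro _ ⟨i, rfl⟩; exact hδs i) _ ?_
        rw [hsig]
        exact prod_mem fun i _ => Algebra.subset_adjoin ⟨i, rfl⟩
      have key : ∀ l : L, δ ((φ sig)⁻¹ * l) = 0 → δ l = 0 := by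
        intro l hl
        have h2 : l = φ sig * ((φ sig)⁻¹ * l) := by
          rw [← mul_assoc, mul_inv_cancel₀ hsig0, one_mul]
        rw [h2, Derivation.leibniz, hl, hδsig, smul_zero, smul_zero, add_zero]
      have hδφ : ∀ p, δ (φ p) = 0 := by
        intro p
        induction p using MvPolynomial.induction_on with
        | C a =>
          have h3 : φ (C a) = algebraMap 𝕜 L a := by
            rw [hφ, IsScalarTower.algebraMap_apply 𝕜 (MvPolynomial (Jm ι K) 𝕜 ⧸ P) L]
            rfl
          rw [h3]
          exact δ.map_algebraMap a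
        | add p q hp hq => rw [map_add, map_add, hp, hq, add_zero]
        | mul_X p j hp =>
          have hj : δ (φ (X j)) = 0 := by
            rcases j with ⟨k, g⟩ | i
            · apply key
              have := hx k g
              rw [Tw.basis_repr, gens, Tw.smul_apply, Tw.map_apply] at this
              exact this
            · exact hδs i
          rw [map_mul, Derivation.leibniz, hp, hj, smul_zero, smul_zero, add_zero]
      refine P199K.der_eq_zero_of_frac δ (Set.range φ) (by rintro _ ⟨p, rfl⟩; exact hδφ p) ?_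
      intro l
      obtain ⟨a, b, hb, rfl⟩ :=
        IsFractionRing.div_surjective (A := MvPolynomial (Jm ι K) 𝕜 ⧸ P) l
      obtain ⟨a, rfl⟩ := Ideal.Quotient.mk_surjective a
      obtain ⟨b, rfl⟩ := Ideal.Quotient.mk_surjective b
      refine ⟨_, Algebra.subset_adjoin ⟨a, rfl⟩, _, Algebra.subset_adjoin ⟨b, rfl⟩, ?_, ?_⟩
      · rw [hφ]
        exact (map_ne_zero_iff _ hinj).2 (nonZeroDivisors.ne_zero hb)
      · rw [hφ, hφ])
    (by
      have h3 := P199K.finrank_dvd_of_subalgebra (L := L) (D := Tw K L (fun i => φ (sm i)))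
        (Algebra.adjoin L (Set.range (gens φ)))
      rw [Tw.finrank_eq, Nat.dvd_prime_pow Nat.prime_two] at h3
      obtain ⟨m, -, hm⟩ := h3
      rw [hm, Nat.cast_pow, Nat.cast_ofNat]
      exact pow_ne_zero m h2L)
    b δb hb
  rw [Tw.finrank_eq] at h1
  exact h1

end P199G
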