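import Vale.Agent.N199.Dim
import Mathlib.Algebra.FreeAlgebra

/-!
# P199 with any finite number of generators, part 3

The limit argument.
-/

set_option linter.all false

namespace P199G

open Vale.Agent.P199.H

variable {ι 𝕜 : Type} [Field 𝕜]

section core

variable {L D : Type} [Field L] [DivisionRing D] [Algebra L D]
  (c : 𝕜 →+* L) (τ : D →ₗ[L] L) (x : ι → D)

/-- the values of trace polynomials -/
abbrev vals : Subring D := TE.values ((algebraMap L D).comp c) (trD τ) x

/-- the scalars which are values of trace polynomials -/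
noncomputable def R1 : Subring L := (vals c τ x).comap (algebraMap L D)

/-- the field generated by the traces and the constants -/
noncomputable def F1 : Subfield L := Subfield.closure (R1 c τ x : Set L)

theorem mem_F1 {a : L} : a ∈ F1 c τ x ↔ ∃ b ∈ R1 c τ x, ∃ d ∈ R1 c τ x, b / d = a := by
  unfold F1
  rw [Subfield.mem_closure_iff, Subring.closure_eq]

theorem R1_le_F1 {a : L} (ha : a ∈ R1 c τ x) : a ∈ F1 c τ x :=
  (mem_F1 c τ x).2 ⟨a, ha, 1, one_mem _, by simp⟩

theorem const_mem_F1 (q : 𝕜) : c q ∈ F1 c τ x := R1_le_F1 c τ x ⟨.const q, rfl⟩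

theorem smul_mem_vals {a : L} (ha : a ∈ R1 c τ x) {v : D}
    (hv : v ∈ vals c τ x) : a • v ∈ vals c τ x := by
  rw [Algebra.smul_def]
  exact mul_mem ha hv

/-- the algebra over `F1` generated by the generators -/
noncomputable def A1 : Subalgebra (F1 c τ x) D := Algebra.adjoin (F1 c τ x) (Set.range x)

theorem exists_smul_mem {w : D} (hw : w ∈ A1 c τ x) :
    ∃ s ∈ R1 c τ x, s ≠ 0 ∧ s • w ∈ vals c τ x := by
  unfold A1 at hw
  induction hw using Algebra.adjoin_induction with
  | mem w hw =>
    refine ⟨1, one_mem _, one_ne_zero, ?_⟩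
    rw [one_smul]
    obtain ⟨i, rfl⟩ := hw
    exact ⟨.var i, rfl⟩
  | algebraMap r =>
    obtain ⟨a, ha, b, hb, hab⟩ := (mem_F1 c τ x).1 r.2
    by_cases h0 : b = 0
    · refine ⟨1, one_mem _, one_ne_zero, ?_⟩
      rw [h0, div_zero] at hab
      have : r = 0 := Subtype.ext hab.symm
      rw [this, map_zero, smul_zero]
      exact zero_mem _
    · refine ⟨b, hb, h0, ?_⟩
      have h1 : b • algebraMap (F1 c τ x) D r = algebraMap L D a := by
        have h2 : algebraMap (F1 c τ x) D r = algebraMap L D (r : L) := rfl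
        rw [h2, Algebra.smul_def, ← map_mul, ← hab, mul_div_cancel₀ _ h0]
      rw [h1]
      exact ha
  | add a b _ _ ha hb =>
    obtain ⟨s, hs, hs0, hs1⟩ := ha
    obtain ⟨t, ht, ht0, ht1⟩ := hb
    refine ⟨s * t, mul_mem hs ht, mul_ne_zero hs0 ht0, ?_⟩
    rw [smul_add]
    refine add_mem ?_ ?_
    · rw [mul_comm, mul_smul]
      exact smul_mem_vals c τ x ht hs1
    · rw [mul_smul]
      exact smul_mem_vals c τ x hs ht1
  | mul a b _ _ ha hb =>
    obtain ⟨s, hs, hs0, hs1⟩ := ha
    obtain ⟨t, ht, ht0, ht1⟩ := hb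
    refine ⟨s * t, mul_mem hs ht, mul_ne_zero hs0 ht0, ?_⟩
    have : (s * t) • (a * b) = (s • a) * (t • b) := by
      rw [smul_mul_smul_comm]
    rw [this]
    exact mul_mem hs1 ht1

theorem tau_mem {w : D} (hw : w ∈ A1 c τ x) : τ w ∈ F1 c τ x := by
  obtain ⟨s, hs, hs0, hs1⟩ := exists_smul_mem c τ x hw
  have h1 : s * τ w ∈ R1 c τ x := by
    have := TE.tr_mem_values ((algebraMap L D).comp c) (trD τ) x hs1
    unfold trD at this
    rw [map_smul, smul_eq_mul] at this
    exact this
  have h2 := (F1 c τ x).div_mem (R1_le_F1 c τ x h1) (R1_le_F1 c τ x hs)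
  rwa [mul_div_cancel_left₀ _ hs0] at h2

variable {c τ x}

theorem exists_monic_A1 (hτ : τ 1 = 1)
    (halg : ∀ Φ : TE ι 𝕜, IsAlgebraic L (TE.eval ((algebraMap L D).comp c) (trD τ) x Φ))
    {w : D} (hw : w ∈ A1 c τ x) :
    ∃ p : Polynomial (F1 c τ x), p.Monic ∧ p.natDegree = (minpoly L w).natDegree ∧
      Polynomial.aeval w p = 0 := by
  refine P199K.exists_monic_of_trace τ hτ (F1 c τ x) ?_ fun k => tau_mem c τ x (pow_mem hw k)
  obtain ⟨s, hs, hs0, Φ, hΦ⟩ := exists_smul_mem c τ x hw
  have h1 : w = s⁻¹ • TE.eval ((algebraMap L D).comp c) (trD τ) x Φ := by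
    rw [hΦ, smul_smul, inv_mul_cancel₀ hs0, one_smul]
  rw [h1]
  exact ((halg Φ).isIntegral.smul s⁻¹).isAlgebraic

/-- the core of the limit argument -/
theorem core (hτ : τ 1 = 1)
    (halg : ∀ Φ : TE ι 𝕜, IsAlgebraic L (TE.eval ((algebraMap L D).comp c) (trD τ) x Φ))
    (hinf : ¬ Module.Finite L (Algebra.adjoin L (Set.range x))) :
    ∃ (F A : Type) (_ : Field F) (_ : DivisionRing A) (_ : Algebra F A) (c' : 𝕜 →+* F)
      (x' : ι → A) (i : A →+* D),
      (∀ a : A, IsAlgebraic F a) ∧ Algebra.adjoin F (Set.range x') = ⊤ ∧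
        ¬ Module.Finite F A ∧ (∀ k, i (x' k) = x k) ∧
        (∀ q, i (algebraMap F A (c' q)) = algebraMap L D (c q)) ∧
        ∀ a, (minpoly F a).natDegree ≤ (minpoly L (i a)).natDegree := by
  classical
  have hA : ∀ {w : D}, w ∈ A1 c τ x → IsAlgebraic (F1 c τ x) w := fun hw => by
    obtain ⟨p, h1, -, h2⟩ := exists_monic_A1 hτ halg hw
    exact ⟨p, h1.ne_zero, h2⟩
  have hal : ∀ a : A1 c τ x, IsAlgebraic (F1 c τ x) a := fun a =>
    (isAlgebraic_algHom_iff (A1 c τ x).val Subtype.val_injective).1 (hA a.2)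
  have hunit : ∀ a : A1 c τ x, IsUnit a ∨ a = 0 := by
    intro a
    by_cases h0 : a = 0
    · exact Or.inr h0
    · left
      have hne : (a : D) ≠ 0 := fun h => h0 (Subtype.ext h)
      have hinv : (a : D)⁻¹ ∈ A1 c τ x :=
        (Algebra.adjoin_le (Set.singleton_subset_iff.2 a.2)) (hA a.2).isIntegral.inv_mem_adjoin
      exact ⟨⟨a, ⟨_, hinv⟩, Subtype.ext (mul_inv_cancel₀ hne),
        Subtype.ext (inv_mul_cancel₀ hne)⟩, rfl⟩
  let inst : DivisionRing (A1 c τ x) := DivisionRing.ofIsUnitOrEqZero hunit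
  have hx : ∀ k, x k ∈ A1 c τ x := fun k => Algebra.subset_adjoin ⟨k, rfl⟩
  refine ⟨F1 c τ x, A1 c τ x, inferInstance, inst, inferInstance,
    c.codRestrict (F1 c τ x) (const_mem_F1 c τ x), fun k => ⟨x k, hx k⟩,
    (A1 c τ x).val.toRingHom, hal, ?_, ?_, fun _ => rfl, fun _ => rfl, fun a => ?_⟩
  · have h1 : (Set.range fun k => (⟨x k, hx k⟩ : A1 c τ x)) =
        ((↑) : A1 c τ x → D) ⁻¹' Set.range x := by
      ext a
      simp [Subtype.ext_iff]
    rw [h1]
    exact Algebra.adjoin_adjoin_coe_preimage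
  · intro hfin
    apply hinf
    have hfg : (Subalgebra.toSubmodule (A1 c τ x)).FG := Module.Finite.iff_fg.1 hfin
    obtain ⟨G, hG⟩ := hfg
    have h1 : Subalgebra.toSubmodule (Algebra.adjoin L (Set.range x)) ≤
        Submodule.span L (G : Set D) := by
      rw [Algebra.adjoin_eq_span, Submodule.span_le]
      intro w hw
      have hw' : w ∈ A1 c τ x := by
        have h2 : (Submonoid.closure (Set.range x)) ≤ (A1 c τ x).toSubmonoid :=
          Submonoid.closure_le.2 Algebra.subset_adjoin
        exact h2 hw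
      have h3 : w ∈ Submodule.span (F1 c τ x) (G : Set D) := by
        rw [hG]
        exact hw'
      exact Submodule.span_le_restrictScalars (F1 c τ x) L _ h3
    have h2 : Module.Finite L (Submodule.span L (G : Set D)) :=
      FiniteDimensional.span_finset L G
    exact Submodule.finiteDimensional_of_le h1
  · obtain ⟨p, h1, h2, h3⟩ := exists_monic_A1 hτ halg a.2
    have h4 := minpoly.algHom_eq (A1 c τ x).val Subtype.val_injective a
    have h5 := Polynomial.natDegree_le_natDegree (minpoly.min (F1 c τ x) (a : D) h1 h3)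
    rw [h2] at h5
    exact (congrArg Polynomial.natDegree h4.symm).le.trans h5

end core

section words

/-- value of a word -/
def wv {D : Type*} [Monoid D] (x : ι → D) (u : List ι) : D := (u.map x).prod

theorem wv_cons {D : Type*} [Monoid D] (x : ι → D) (b : ι) (u : List ι) :
    wv x (b :: u) = x b * wv x u := by simp [wv]

theorem exists_wv {D : Type*} [Monoid D] (x : ι → D) {w : D}
    (hw : w ∈ Submonoid.closure (Set.range x)) : ∃ u, wv x u = w := by
  induction hw using Submonoid.closure_induction with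
  | mem w hw =>
    obtain ⟨i, rfl⟩ := hw
    exact ⟨[i], by simp [wv]⟩
  | one => exact ⟨[], rfl⟩
  | mul a b _ _ ha hb =>
    obtain ⟨u, rfl⟩ := ha
    obtain ⟨v, rfl⟩ := hb
    exact ⟨u ++ v, by simp [wv]⟩

theorem wv_mem {D : Type*} [Monoid D] (x : ι → D) (u : List ι) :
    wv x u ∈ Submonoid.closure (Set.range x) := by
  induction u with
  | nil => exact one_mem _
  | cons b u ih =>
    rw [wv_cons]
    exact mul_mem (Submonoid.subset_closure ⟨b, rfl⟩) ih

theorem finrank_le_of_words {L D : Type*} [Field L] [Ring D] [Algebra L D] (x : ι → D)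
    (T : Finset (List ι))
    (h : ∀ u : List ι, (u = [] ∨ ∃ b, ∃ t ∈ T, u = b :: t) →
      wv x u ∈ Submodule.span L (wv x '' (T : Set (List ι)))) :
    Module.finrank L (Algebra.adjoin L (Set.range x)) ≤ T.card := by
  classical
  have hmul : ∀ b : ι, ∀ w ∈ Submodule.span L (wv x '' (T : Set (List ι))),
      x b * w ∈ Submodule.span L (wv x '' (T : Set (List ι))) := by
    intro b w hw
    induction hw using Submodule.span_induction with
    | mem w hw =>
      obtain ⟨t, ht, rfl⟩ := hw
      rw [← wv_cons]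
      exact h _ (Or.inr ⟨b, t, ht, rfl⟩)
    | zero => rw [mul_zero]; exact zero_mem _
    | add a b _ _ ha hb => rw [mul_add]; exact add_mem ha hb
    | smul c a _ ha => rw [mul_smul_comm]; exact Submodule.smul_mem _ _ ha
  have hall : ∀ u, wv x u ∈ Submodule.span L (wv x '' (T : Set (List ι))) := by
    intro u
    induction u with
    | nil => exact h _ (Or.inl rfl)
    | cons b u ih =>
      rw [wv_cons]
      exact hmul b _ ih
  have h1 : Subalgebra.toSubmodule (Algebra.adjoin L (Set.range x)) ≤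
      Submodule.span L (wv x '' (T : Set (List ι))) := by
    rw [Algebra.adjoin_eq_span, Submodule.span_le]
    intro w hw
    obtain ⟨u, rfl⟩ := exists_wv x hw
    exact hall u
  have h2 : (wv x '' (T : Set (List ι))) = ((T.image (wv x) : Finset D) : Set D) := by
    rw [Finset.coe_image]
  rw [h2] at h1
  have h3 : Module.Finite L (Submodule.span L ((T.image (wv x) : Finset D) : Set D)) :=
    FiniteDimensional.span_finset L _
  have h4 := Submodule.finrank_mono h1
  have h5 := finrank_span_finset_le_card (R := L) (T.image (wv x))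
  exact h4.trans (h5.trans Finset.card_image_le)

end words

section ultra

variable {L D : ℕ → Type} [∀ n, Field (L n)] [∀ n, DivisionRing (D n)]
  [∀ n, Algebra (L n) (D n)]

theorem wv_pr (x : ∀ n, ι → D n) (u : List ι) :
    wv (fun k => pr D fun n => x n k) u = pr D (fun n => wv (x n) u) := by
  induction u with
  | nil => exact (map_one (pr D)).symm
  | cons b u ih =>
    rw [wv_cons, ih, ← map_mul]
    congr 1

theorem not_finite_pr [Fintype ι] (x : ∀ n, ι → D n)
    (h : ∀ n, n ≤ Module.finrank (L n) (Algebra.adjoin (L n) (Set.range (x n)))) :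
    ¬ Module.Finite (UP L) (Algebra.adjoin (UP L) (Set.range fun k => pr D fun n => x n k)) := by
  classical
  intro hfin
  set y : ι → UP D := fun k => pr D fun n => x n k with hy
  have hfg : (Subalgebra.toSubmodule (Algebra.adjoin (UP L) (Set.range y))).FG :=
    Module.Finite.iff_fg.1 hfin
  rw [Algebra.adjoin_eq_span, Submodule.fg_span_iff_fg_span_finset_subset] at hfg
  obtain ⟨S, hS, hspan⟩ := hfg
  choose! g hg using fun w (hw : w ∈ S) => exists_wv y (hS hw)
  let T : Finset (List ι) := S.image g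
  have hT : (S : Set (UP D)) ⊆ wv y '' (T : Set (List ι)) := by
    intro w hw
    exact ⟨g w, Finset.mem_coe.2 (Finset.mem_image_of_mem g hw), hg w hw⟩
  have hall : ∀ u, wv y u ∈ Submodule.span (UP L) (wv y '' (T : Set (List ι))) := by
    intro u
    apply Submodule.span_mono hT
    rw [← hspan]
    exact Submodule.subset_span (wv_mem _ u)
  have hcoef : ∀ u, ∃ c : List ι → ∀ n, L n,
      ∀ᶠ n in UU, ∑ t ∈ T, c t n • wv (x n) t = wv (x n) u := by
    intro u
    obtain ⟨c, hc⟩ := (Submodule.mem_span_image_finset_iff_exists_fun' (UP L)).1 (hall u)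
    choose c' hc' using fun t => pr_surjective L (c t)
    refine ⟨c', ?_⟩
    rw [hy, wv_pr] at hc
    have h1 : ∑ t ∈ T, c t • wv (fun k => pr D fun n => x n k) t =
        ∑ t ∈ T, pr L (c' t) • pr D (fun n => wv (x n) t) := by
      refine Finset.sum_congr rfl fun t _ => ?_
      rw [hc' t, wv_pr]
    rw [h1, sum_pr, pr_eq_iff] at hc
    exact hc
  choose c hc using hcoef
  let V : Finset (List ι) :=
    insert [] ((Finset.univ ×ˢ T).image (fun bt : ι × List ι => bt.1 :: bt.2))
  have hev : ∀ᶠ n in UU, T.card + 1 ≤ n :=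
    (Filter.eventually_ge_atTop _).filter_mono Nat.hyperfilter_le_atTop
  have hV : ∀ᶠ n in UU, ∀ u ∈ V, ∑ t ∈ T, c u t n • wv (x n) t = wv (x n) u := by
    rw [Filter.eventually_all_finset]
    intro u _
    exact hc u
  obtain ⟨n, hn, hn'⟩ := (hV.and hev).exists
  have h1 := finrank_le_of_words (L := L n) (x n) T (by
    intro u hu
    have huV : u ∈ V := by
      rcases hu with rfl | ⟨b, t, ht, rfl⟩
      · exact Finset.mem_insert_self _ _
      · refine Finset.mem_insert_of_mem (Finset.mem_image.2 ⟨(b, t), ?_, rfl⟩)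
        simp [ht]
    exact (Submodule.mem_span_image_finset_iff_exists_fun' (L n)).2 ⟨fun t => c u t n, hn u huV⟩)
  have h2 := h n
  omega

theorem eval_pr (c : ∀ n, 𝕜 →+* L n) (τ : ∀ n, D n →ₗ[L n] L n) (x : ∀ n, ι → D n)
    (Φ : TE ι 𝕜) :
    TE.eval ((algebraMap (UP L) (UP D)).comp (P199K.cUP c)) (trD (tauUP τ))
        (fun k => pr D fun n => x n k) Φ =
      pr D (fun n => TE.eval ((algebraMap (L n) (D n)).comp (c n)) (trD (τ n)) (x n) Φ) := by
  induction Φ with
  | var i => rfl
  | const q => exact algebraMap_pr L D (fun n => c n q)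
  | add a b iha ihb =>
    rw [TE.eval, iha, ihb, ← map_add]
    rfl
  | mul a b iha ihb =>
    rw [TE.eval, iha, ihb, ← map_mul]
    rfl
  | tr a iha =>
    rw [TE.eval, iha]
    unfold trD
    rw [tauUP_pr, algebraMap_pr]
    rfl

end ultra

/-- noncommutative polynomials as trace polynomials -/
theorem exists_te {k : Type} [CommRing k] (φ : k →+* 𝕜) (p : FreeAlgebra k ι) :
    ∃ Ψ : TE ι 𝕜, ∀ (D : Type) (_ : Ring D) (c : 𝕜 →+* D) (t : D → D) (u : ι → D)
      (g : FreeAlgebra k ι →+* D), (∀ i, g (FreeAlgebra.ι k i) = u i) →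
      (∀ r, g (algebraMap k _ r) = c (φ r)) → TE.eval c t u Ψ = g p := by
  induction p using FreeAlgebra.induction with
  | grade0 r => exact ⟨.const (φ r), fun D _ c t u g _ h => (h r).symm⟩
  | grade1 i => exact ⟨.var i, fun D _ c t u g h _ => (h i).symm⟩
  | mul p q hp hq =>
    obtain ⟨A, hA⟩ := hp
    obtain ⟨B, hB⟩ := hq
    exact ⟨.mul A B, fun D _ c t u g h1 h2 => by
      rw [TE.eval, hA D _ c t u g h1 h2, hB D _ c t u g h1 h2, map_mul]⟩
  | add p q hp hq =>
    obtain ⟨A, hA⟩ := hp
    obtain ⟨B, hB⟩ := hq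
    exact ⟨.add A B, fun D _ c t u g h1 h2 => by
      rw [TE.eval, hA D _ c t u g h1 h2, hB D _ c t u g h1 h2, map_add]⟩

end P199G
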