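import Vale.Agent.N199.Lim
import Mathlib.Analysis.SpecificLimits.Basic

/-!
# P199 with any finite number of generators, part 4

The inequality of Golod and Shafarevich type.
-/

set_option linter.all false

namespace P199G

open MvPolynomial Module P199H
open Vale.Agent.P199.H (trD UP UU pr tauUP tauUP_pr)

variable {ι 𝕜 : Type} [Field 𝕜] [Fintype ι]

/-- The levels. -/
theorem level [PerfectField 𝕜] (h𝕜 : (2 : 𝕜) ≠ 0) {κ : Type} (Φ : κ → TE ι 𝕜) (a : κ → ℕ)
    (S : Finset κ) {s : ℝ} (hs : s < Fintype.card ι - 1)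
    (hS : ∑ j ∈ S, (1 / 2 : ℝ) ^ a j ≤ s) (n : ℕ) :
    ∃ (L D : Type) (_ : Field L) (_ : DivisionRing D)
      (_ : Algebra L D) (c : 𝕜 →+* L) (τ : D →ₗ[L] L) (x : ι → D), τ 1 = 1 ∧
      (∀ j ∈ S, PolyRel L (2 ^ a j) (TE.eval ((algebraMap L D).comp c) (trD τ) x (Φ j))) ∧
      n ≤ Module.finrank L (Algebra.adjoin L (Set.range x)) := by
  classical
  obtain ⟨N, hN⟩ := exists_nat_gt
    ((Fintype.card ι * (n : ℝ) ^ 2) / (Fintype.card ι - 1 - s))
  rw [div_lt_iff₀ (by linarith)] at hN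
  obtain ⟨K, hK0, hKN, hKa⟩ : ∃ K, 0 < K ∧ N ≤ K ∧ ∀ j ∈ S, a j ≤ K :=
    ⟨S.sup a + N + 1, by omega, by omega, fun j hj => (Finset.le_sup hj).trans (by omega)⟩
  obtain ⟨P, hP, hH, hLC, hc, hrel⟩ := L8ind h𝕜 hK0 Φ a S hKa
  have hsm : ∀ i, sm i ∉ P := fun i =>
    P199K.X_notMem_of_good wm _ hP hH hLC (Sum.inr i) (two_dvd_dotTh_single i)
  haveI := hP
  let L := FractionRing (MvPolynomial (Jm ι K) 𝕜 ⧸ P)
  let φ : MvPolynomial (Jm ι K) 𝕜 →+* L :=
    (algebraMap (MvPolynomial (Jm ι K) 𝕜 ⧸ P) L).comp (Ideal.Quotient.mk P)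
  have hφ0 : ∀ p, φ p = 0 ↔ p ∈ P := by
    intro p
    change algebraMap _ L (Ideal.Quotient.mk P p) = 0 ↔ _
    rw [map_eq_zero_iff _ (IsFractionRing.injective _ _), Ideal.Quotient.eq_zero_iff_mem]
  have hsig : φ sig ≠ 0 := by
    unfold sig
    rw [map_prod, Finset.prod_ne_zero_iff]
    exact fun i _ h => hsm i ((hφ0 _).1 h)
  haveI hNZ := P199K.L5 wm (wm_ne_zero hK0) (js := Sum.inr) Sum.inr_injective (fun i => rfl)
    hP hH hLC
  haveI hNZ' : NoZeroDivisors (Tw K L (fun i => φ (sm i))) :=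
    Tw.noZeroDivisors_frac (s := fun i => Ideal.Quotient.mk P (X (Sum.inr i))) (fun _ => rfl)
  letI iD : DivisionRing (Tw K L (fun i => φ (sm i))) := Tw.divisionRing
  refine ⟨L, Tw K L (fun i => φ (sm i)), inferInstance, iD, inferInstance,
    φ.comp MvPolynomial.C, Tw.tau, gens φ, Tw.tau_one, fun j hj =>
      polyRel_of_minors (Φ j) _ φ hsig fun f => (hφ0 _).2 (hrel j hj f), ?_⟩
  have h1 := dim_bound h𝕜 P L φ (fun _ => rfl) hsig
  have h2 := P199K.polySys_c_add_td wm (wm_ne_zero hK0) P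
  rw [card_Jm] at h2
  change n ≤ Module.finrank L (Algebra.adjoin L (Set.range (gens φ)))
  revert h1
  generalize Module.finrank L (Algebra.adjoin L (Set.range (gens φ))) = G
  intro h1
  by_contra hG
  push Not at hG
  have h3 : Fintype.card ι * 2 ^ (2 * K) ≤
      ∑ j ∈ S, 2 ^ (2 * K - a j) + 2 ^ (2 * K) + Fintype.card ι * n ^ 2 := by
    have := Nat.mul_le_mul_left (Fintype.card ι) (Nat.pow_le_pow_left hG.le 2)
    omega
  have h4 : (Fintype.card ι : ℝ) * 2 ^ (2 * K) ≤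
      ∑ j ∈ S, (2 : ℝ) ^ (2 * K - a j) + 2 ^ (2 * K) + Fintype.card ι * (n : ℝ) ^ 2 := by
    exact_mod_cast h3
  have h5 : ∑ j ∈ S, (2 : ℝ) ^ (2 * K - a j) = 2 ^ (2 * K) * ∑ j ∈ S, (1 / 2 : ℝ) ^ a j := by
    rw [Finset.mul_sum]
    refine Finset.sum_congr rfl fun j hj => ?_
    rw [pow_sub₀ _ two_ne_zero ((hKa j hj).trans (by omega)), one_div, inv_pow]
  have h6 : (N : ℝ) ≤ 2 ^ (2 * K) := by
    have : N ≤ 2 ^ (2 * K) := (hKN.trans (by omega : K ≤ 2 * K)).trans Nat.lt_two_pow_self.le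
    exact_mod_cast this
  have h7 : (0 : ℝ) < 2 ^ (2 * K) := by positivity
  rw [h5] at h4
  nlinarith [mul_le_mul_of_nonneg_left hS h7.le,
    mul_le_mul_of_nonneg_right h6 (show (0 : ℝ) ≤ Fintype.card ι - 1 - s by linarith)]

/-- the degree over the center is at most the degree over a central subfield -/
theorem deg_center_le {F A : Type} [Field F] [DivisionRing A] [Algebra F A] {a : A}
    (ha : IsAlgebraic F a) :
    (minpoly (Subring.center A) a).natDegree ≤ (minpoly F a).natDegree := by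
  let f : F →+* Subring.center A :=
    (algebraMap F A).codRestrict (Subring.center A) fun r =>
      Subring.mem_center_iff.2 fun g => (Algebra.commutes r g).symm
  have h1 := minpoly.min (Subring.center A) a ((minpoly.monic ha.isIntegral).map f) (by
    rw [Polynomial.aeval_def, Polynomial.eval₂_map]
    exact minpoly.aeval F a)
  exact (Polynomial.natDegree_le_natDegree h1).trans Polynomial.natDegree_map_le

/-- **The inequality of Golod and Shafarevich type.** -/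
theorem gs {k₀ : Type} [Field k₀] [Countable k₀] (h2 : (2 : k₀) ≠ 0) {κ : Type} [Countable κ]
    (w : κ → FreeAlgebra k₀ ι) (a : κ → ℕ) {s : ℝ}
    (ha : HasSum (fun j => (1 / 2 : ℝ) ^ a j) s) (hs : s < Fintype.card ι - 1) :
    ∃ (D : Type) (_ : DivisionRing D) (_ : Algebra k₀ D) (x : ι → D),
      ((∀ b : D, IsAlgebraic (Subring.center D) b) ∧
        Algebra.adjoin (Subring.center D) (Set.range x) = ⊤ ∧
        ¬ Module.Finite (Subring.center D) D) ∧
      ∀ j, (minpoly (Subring.center D) (FreeAlgebra.lift k₀ x (w j))).natDegree ≤ 2 ^ a j := by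
  classical
  have hc := P199K.countable_algebraicClosure k₀
  let 𝕜 := AlgebraicClosure k₀
  let φ : k₀ →+* 𝕜 := algebraMap k₀ 𝕜
  have h2' : (2 : 𝕜) ≠ 0 := fun h =>
    h2 (φ.injective (by rw [map_ofNat, map_zero]; exact h))
  have hne : Nonempty (TE ι 𝕜) := ⟨.const 0⟩
  obtain ⟨en, hen⟩ := exists_surjective_nat (TE ι 𝕜)
  choose tw htw using exists_te (ι := ι) φ
  obtain ⟨N, hN⟩ := exists_pow_lt_of_lt_one
    (show (0 : ℝ) < (Fintype.card ι - 1 - s) / 2 by linarith) (show (1 / 2 : ℝ) < 1 by norm_num)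
  let Φ : κ ⊕ ℕ → TE ι 𝕜 := Sum.elim (fun j => tw (w j)) en
  let a' : κ ⊕ ℕ → ℕ := Sum.elim a (fun j => N + j)
  have hsum : ∀ S : Finset (κ ⊕ ℕ), ∑ j ∈ S, (1 / 2 : ℝ) ^ a' j ≤ s + (1 / 2) ^ N * 2 := by
    intro S
    rw [Finset.sum_sum_eq_sum_toLeft_add_sum_toRight]
    refine add_le_add (sum_le_hasSum _ (fun _ _ => by positivity) ha) ?_
    have h3 := sum_le_hasSum S.toRight (fun _ _ => by positivity)
      (hasSum_geometric_two.mul_left ((1 / 2 : ℝ) ^ N))
    simpa only [a', Sum.elim_inr, pow_add] using h3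
  obtain ⟨e, he⟩ := exists_injective_nat (κ ⊕ ℕ)
  let S : ℕ → Finset (κ ⊕ ℕ) := fun n => ((Set.finite_Iic n).preimage he.injOn).toFinset
  choose L D iL iD iA c τ x hτ hj hn using fun n =>
    level h2' Φ a' (S n) (s := s + (1 / 2) ^ N * 2) (by linarith) (hsum _) n
  have hrel : ∀ j, PolyRel (UP L) (2 ^ a' j)
      (TE.eval ((algebraMap (UP L) (UP D)).comp (P199K.cUP c)) (trD (tauUP τ))
        (fun k => pr D fun n => x n k) (Φ j)) := by
    intro j
    rw [eval_pr, P199K.polyRel_pr]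
    have hev : ∀ᶠ n in UU, e j ≤ n :=
      (Filter.eventually_ge_atTop _).filter_mono Nat.hyperfilter_le_atTop
    exact hev.mono fun n hjn => hj n j ((Set.Finite.mem_toFinset _).2 hjn)
  have halg : ∀ Ψ, IsAlgebraic (UP L)
      (TE.eval ((algebraMap (UP L) (UP D)).comp (P199K.cUP c)) (trD (tauUP τ))
        (fun k => pr D fun n => x n k) Ψ) := by
    intro Ψ
    obtain ⟨j, rfl⟩ := hen Ψ
    obtain ⟨p, hp, -, h⟩ := hrel (Sum.inr j)
    exact ⟨p, hp, h⟩
  obtain ⟨F, A, i1, i2, i3, c', x', i, h1, h3, h4, h5, h6, h7⟩ := core (c := P199K.cUP c)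
    (τ := tauUP τ) (x := fun k => pr D fun n => x n k) (by
      rw [← map_one (pr D), tauUP_pr, ← map_one (pr L)]
      congr 1
      funext n
      exact hτ n) halg (not_finite_pr x hn)
  let iA' : Algebra k₀ A := ((algebraMap F A).comp (c'.comp φ)).toAlgebra'
    (fun r b => Algebra.commutes (c' (φ r)) b)
  refine ⟨A, i2, iA', x', not_finite_center' h1 _ (Set.finite_range _) h3 h4, fun j => ?_⟩
  refine (deg_center_le (h1 _)).trans ((h7 _).trans ?_)
  have h8 := htw (w j) (UP D) _ ((algebraMap (UP L) (UP D)).comp (P199K.cUP c)) (trD (tauUP τ))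
    (fun k => pr D fun n => x n k) (i.comp (FreeAlgebra.lift k₀ x').toRingHom)
    (fun k => by
      change i (FreeAlgebra.lift k₀ x' (FreeAlgebra.ι k₀ k)) = _
      rw [FreeAlgebra.lift_ι_apply, h5])
    (fun r => by
      change i (FreeAlgebra.lift k₀ x' (algebraMap k₀ _ r)) = _
      rw [AlgHom.commutes]
      exact h6 (φ r))
  have h9 := (P199K.polyRel_iff_natDegree (halg (Φ (Sum.inl j))) _).1 (hrel (Sum.inl j))
  change (minpoly _ (TE.eval _ _ _ (tw (w j)))).natDegree ≤ _ at h9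
  rw [h8] at h9
  exact h9

end P199G
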