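import Vale.Agent.N199.Main

/-!
# P199 with any finite number of generators, part 5

Sharpness for the degrees of the generators.
-/

set_option linter.all false

namespace P199G

open Polynomial

variable {D : Type} [DivisionRing D]

theorem sq_eq {x : D} (hx : IsAlgebraic (Subring.center D) x)
    (h : (minpoly (Subring.center D) x).natDegree ≤ 2) :
    ∃ a b : Subring.center D, x * x = a • x + b • (1 : D) := by
  have hm := minpoly.monic hx.isIntegral
  have h1 := natDegree_modByMonic_lt (X ^ 2) hm (minpoly.ne_one (Subring.center D) x)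
  have h2 := aeval_modByMonic_eq_self_of_root (p := X ^ 2) (minpoly.aeval (Subring.center D) x)
  rw [eq_X_add_C_of_natDegree_le_one (p := X ^ 2 %ₘ minpoly (Subring.center D) x) (by omega),
    map_add, map_mul, aeval_C, aeval_X, aeval_C, map_pow, aeval_X, sq x] at h2
  refine ⟨(X ^ 2 %ₘ minpoly (Subring.center D) x).coeff 1,
    (X ^ 2 %ₘ minpoly (Subring.center D) x).coeff 0, ?_⟩
  rw [Algebra.smul_def, Algebra.smul_def, mul_one]
  exact h2.symm

theorem finite_of_two {u v : D} (hgen : Algebra.adjoin (Subring.center D) {u, v} = ⊤)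
    {a b c d : Subring.center D} (hu : u * u = a • u + b • (1 : D))
    (hv : v * v = c • v + d • (1 : D)) : Module.Finite (Subring.center D) D := by
  have ind : ∀ p : D → Prop, p u → p v → (∀ r : Subring.center D, p (r • (1 : D))) →
      (∀ y z, p y → p z → p (y + z)) → (∀ y z, p y → p z → p (y * z)) → ∀ z, p z := by
    intro p h1 h2 h3 h4 h5 z
    have hz : z ∈ Algebra.adjoin (Subring.center D) {u, v} := hgen ▸ Algebra.mem_top
    induction hz using Algebra.adjoin_induction with
    | mem y hy =>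
      rcases hy with rfl | rfl
      · exact h1
      · exact h2
    | algebraMap r => rw [Algebra.algebraMap_eq_smul_one]; exact h3 r
    | add y z _ _ hy hz => exact h4 y z hy hz
    | mul y z _ _ hy hz => exact h5 y z hy hz
  have hu' : ∀ z, u * (u * z) = a • (u * z) + b • z := fun z => by
    rw [← mul_assoc, hu, add_mul, smul_mul_assoc, smul_mul_assoc, one_mul]
  have hv' : ∀ z, v * (v * z) = c • (v * z) + d • z := fun z => by
    rw [← mul_assoc, hv, add_mul, smul_mul_assoc, smul_mul_assoc, one_mul]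
  have ht : u * v + v * u - c • u - a • v ∈ Subring.center D := by
    rw [Subring.mem_center_iff]
    refine ind _ ?_ ?_ ?_ ?_ ?_
    · simp only [mul_add, add_mul, mul_sub, sub_mul, mul_smul_comm, smul_mul_assoc, mul_assoc,
        hu', hu, mul_one]
      module
    · simp only [mul_add, add_mul, mul_sub, sub_mul, mul_smul_comm, smul_mul_assoc, mul_assoc,
        hv', hv, mul_one]
      module
    · intro r
      rw [smul_mul_assoc, mul_smul_comm, one_mul, mul_one]
    · intro y z hy hz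
      rw [add_mul, mul_add, hy, hz]
    · intro y z hy hz
      rw [mul_assoc, hz, ← mul_assoc, hy, mul_assoc]
  have hvu : ∀ z, v * (u * z) =
      (⟨_, ht⟩ : Subring.center D) • z + c • (u * z) + a • (v * z) - u * (v * z) := fun z => by
    change _ = (u * v + v * u - c • u - a • v) * z + _ + _ - _
    simp only [add_mul, sub_mul, smul_mul_assoc, mul_assoc]
    abel
  let W := Submodule.span (Subring.center D) ({1, u, v, u * v} : Set D)
  have m1 : (1 : D) ∈ W := Submodule.subset_span (by simp)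
  have m2 : u ∈ W := Submodule.subset_span (by simp)
  have m3 : v ∈ W := Submodule.subset_span (by simp)
  have m4 : u * v ∈ W := Submodule.subset_span (by simp)
  have m5 : v * v ∈ W := hv ▸ add_mem (W.smul_mem _ m3) (W.smul_mem _ m1)
  have m6 : u * (v * v) ∈ W := by
    rw [hv, mul_add, mul_smul_comm, mul_smul_comm, mul_one]
    exact add_mem (W.smul_mem _ m4) (W.smul_mem _ m2)
  have sp : ∀ y : D, y ∈ W → y * u ∈ W → y * v ∈ W → y * (u * v) ∈ W → ∀ w ∈ W, y * w ∈ W := by
    intro y h1 h2 h3 h4 w hw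
    induction hw using Submodule.span_induction with
    | mem w hw =>
      rcases hw with rfl | rfl | rfl | rfl
      · rwa [mul_one]
      · exact h2
      · exact h3
      · exact h4
    | zero => rw [mul_zero]; exact zero_mem _
    | add p q _ _ hp hq => rw [mul_add]; exact add_mem hp hq
    | smul r p _ hp => rw [mul_smul_comm]; exact W.smul_mem _ hp
  have key : ∀ z : D, ∀ w ∈ W, z * w ∈ W := by
    refine ind _ (sp u m2 ?_ m4 ?_) (sp v m3 ?_ m5 ?_) ?_ ?_ ?_
    · exact hu ▸ add_mem (W.smul_mem _ m2) (W.smul_mem _ m1)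
    · exact hu' v ▸ add_mem (W.smul_mem _ m4) (W.smul_mem _ m3)
    · have h := hvu 1
      simp only [mul_one] at h
      exact h ▸ sub_mem (add_mem (add_mem (W.smul_mem _ m1) (W.smul_mem _ m2)) (W.smul_mem _ m3)) m4
    · rw [hvu v, ← mul_assoc u v v, mul_assoc u v v]
      refine sub_mem (add_mem (add_mem (W.smul_mem _ m3) (W.smul_mem _ m4)) (W.smul_mem _ m5)) m6
    · intro r w hw
      rw [smul_mul_assoc, one_mul]
      exact W.smul_mem _ hw
    · intro y z hy hz w hw
      rw [add_mul]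
      exact add_mem (hy w hw) (hz w hw)
    · intro y z hy hz w hw
      rw [mul_assoc]
      exact hy _ (hz w hw)
  refine ⟨⟨Set.Finite.toFinset (Set.toFinite ({1, u, v, u * v} : Set D)), ?_⟩⟩
  rw [Set.Finite.coe_toFinset, eq_top_iff]
  intro z _
  have h := key z 1 m1
  rwa [mul_one] at h

theorem struct {ι : Type} [Fintype ι] (f : ι → ℝ) (d : ι → ℕ) (h0 : ∀ i, 0 ≤ f i)
    (h1 : ∀ i, 2 ≤ d i → 1 / 2 ≤ f i) (h2 : ∀ i, 3 ≤ d i → 1 / 2 < f i) (hs : ∑ i, f i ≤ 1) :
    (∃ i j, i ≠ j ∧ d i ≤ 2 ∧ d j ≤ 2 ∧ ∀ l, 2 ≤ d l → l = i ∨ l = j) ∨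
      ∀ i j, 2 ≤ d i → 2 ≤ d j → i = j := by
  classical
  have hsum : ∀ S : Finset ι, ∑ i ∈ S, f i ≤ 1 := fun S =>
    (Finset.sum_le_univ_sum_of_nonneg h0).trans hs
  refine or_iff_not_imp_right.2 fun h => ?_
  push Not at h
  obtain ⟨i, j, hi, hj, hij⟩ := h
  have h3 := hsum {i, j}
  rw [Finset.sum_pair hij] at h3
  have h4 := h1 i hi
  have h5 := h1 j hj
  refine ⟨i, j, hij, ?_, ?_, fun l hl => ?_⟩
  · by_contra h6
    have := h2 i (by omega)
    linarith
  · by_contra h6
    have := h2 j (by omega)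
    linarith
  · by_contra h6
    push Not at h6
    have h9 := hsum {l, i, j}
    rw [Finset.sum_insert (by simp [h6.1, h6.2]), Finset.sum_pair hij] at h9
    have := h1 l hl
    linarith

theorem sum_sub {ι : Type} [Fintype ι] (g : ι → ℝ) :
    ∑ i, (1 - g i) ≤ 1 ↔ ¬ ∑ i, g i < Fintype.card ι - 1 := by
  rw [Finset.sum_sub_distrib, Finset.sum_const, Finset.card_univ, nsmul_eq_mul, mul_one, not_lt]
  constructor <;> intro h <;> linarith

theorem sharp {ι : Type} [Fintype ι] (d : ι → ℕ) (x : ι → D)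
    (halg : ∀ b : D, IsAlgebraic (Subring.center D) b)
    (hgen : Algebra.adjoin (Subring.center D) (Set.range x) = ⊤)
    (hinf : ¬ Module.Finite (Subring.center D) D)
    (hdeg : ∀ i, (minpoly (Subring.center D) (x i)).natDegree ≤ d i) :
    ∑ i, (1 / d i : ℝ) < Fintype.card ι - 1 := by
  classical
  by_contra hcon
  apply hinf
  have hpos := fun i => minpoly.natDegree_pos (halg (x i)).isIntegral
  have red : ∀ S : Set D, (∀ i, 2 ≤ d i → x i ∈ S) →
      Algebra.adjoin (Subring.center D) S = ⊤ := by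
    intro S hS
    rw [eq_top_iff, ← hgen, Algebra.adjoin_le_iff]
    rintro _ ⟨i, rfl⟩
    by_cases hi : 2 ≤ d i
    · exact Algebra.subset_adjoin (hS i hi)
    · have h1 := hdeg i
      have h2 := hpos i
      obtain ⟨r, hr⟩ := (minpoly.natDegree_eq_one_iff (A := Subring.center D) (x := x i)).1
        (by omega)
      exact hr ▸ Subalgebra.algebraMap_mem _ r
  have hf : ∀ (i : ι) (n : ℕ), 0 < n → n ≤ d i → (1 / d i : ℝ) ≤ 1 / n := fun i n h0 h =>
    one_div_le_one_div_of_le (by exact_mod_cast h0) (by exact_mod_cast h)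
  rcases struct (fun i => 1 - (1 / d i : ℝ)) d
    (fun i => by have := hf i 1 one_pos ((hpos i).trans_le (hdeg i)); norm_num at this ⊢; linarith)
    (fun i h => by have := hf i 2 two_pos h; push_cast at this; linarith)
    (fun i h => by have := hf i 3 three_pos h; push_cast at this; linarith)
    ((sum_sub _).2 hcon) with ⟨i, j, -, hi, hj, h⟩ | h
  · obtain ⟨p, q, hu⟩ := sq_eq (halg (x i)) ((hdeg i).trans hi)
    obtain ⟨r, s, hv⟩ := sq_eq (halg (x j)) ((hdeg j).trans hj)
    refine finite_of_two (red _ fun l hl => ?_) hu hv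
    rcases h l hl with rfl | rfl
    · exact Or.inl rfl
    · exact Or.inr rfl
  · obtain ⟨u, hu⟩ : ∃ u : D, ∀ i, 2 ≤ d i → x i ∈ ({u} : Set D) := by
      by_cases h1 : ∃ i, 2 ≤ d i
      · obtain ⟨i, hi⟩ := h1
        exact ⟨x i, fun l hl => congrArg x (h l i hl hi)⟩
      · exact ⟨0, fun l hl => absurd ⟨l, hl⟩ h1⟩
    have h3 := (halg u).isIntegral.fg_adjoin_singleton
    rw [red _ hu, Algebra.top_toSubmodule] at h3
    exact ⟨h3⟩

theorem sum_log {ι : Type} [Fintype ι] (d : ι → ℕ) (hd : ∀ i, d i ≠ 0 ∧ d i ≠ 3)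
    (hs : ∑ i, (1 / d i : ℝ) < Fintype.card ι - 1) :
    ∑ i, (1 / 2 : ℝ) ^ Nat.log 2 (d i) < Fintype.card ι - 1 := by
  classical
  by_contra hcon
  refine (sum_sub _).1 ?_ hs
  have hf : ∀ (i : ι) (n : ℕ), 2 ^ n ≤ d i → (1 / 2 : ℝ) ^ Nat.log 2 (d i) ≤ (1 / 2) ^ n :=
    fun i n h => pow_le_pow_of_le_one (by norm_num) (by norm_num)
      (Nat.le_log_of_pow_le (by norm_num) h)
  have h1 : ∀ l, ¬ 2 ≤ d l → 1 - (1 / d l : ℝ) = 0 := fun l hl => by
    have := hd l
    rw [show d l = 1 by omega]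
    norm_num
  have h2 : ∀ l, d l ≤ 2 → 1 - (1 / d l : ℝ) ≤ 1 / 2 := fun l hl => by
    have h3 : (0 : ℝ) < d l := by exact_mod_cast Nat.pos_of_ne_zero (hd l).1
    have := one_div_le_one_div_of_le h3 (show (d l : ℝ) ≤ 2 by exact_mod_cast hl)
    linarith
  rcases struct (fun i => 1 - (1 / 2 : ℝ) ^ Nat.log 2 (d i)) d
    (fun i => by have := hf i 0 (Nat.pos_of_ne_zero (hd i).1); linarith [pow_zero (1 / 2 : ℝ)])
    (fun i h => by have := hf i 1 h; linarith [pow_one (1 / 2 : ℝ)])
    (fun i h => by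
      have := hf i 2 (by have := (hd i).2; omega)
      linarith [show (1 / 2 : ℝ) ^ 2 = 1 / 4 by norm_num])
    ((sum_sub _).2 hcon) with ⟨i, j, hij, hi, hj, h⟩ | h
  · rw [← Finset.sum_subset (Finset.subset_univ {i, j}) fun l _ hl => h1 l fun h3 => hl (by
      simpa using h l h3), Finset.sum_pair hij]
    linarith [h2 i hi, h2 j hj]
  · by_cases h3 : ∃ i, 2 ≤ d i
    · obtain ⟨i, hi⟩ := h3
      rw [Finset.sum_eq_single i (fun l _ hl => h1 l fun h4 => hl (h l i h4 hi)) (by simp)]
      have : (0 : ℝ) ≤ 1 / d i := by positivity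
      linarith
    · rw [Finset.sum_eq_zero fun l _ => h1 l fun h4 => h3 ⟨l, h4⟩]
      exact zero_le_one

end P199G
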