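import Vale.Agent.P199.H128.K6

/-!
# P199 with any finite number of generators, part 1

Trace polynomials in a family of noncommuting variables, their homogenisation, and the
induction with arbitrary exponents.
-/

set_option linter.all false

namespace P199G

/-- Formal trace polynomials in noncommuting variables indexed by `ι`, with coefficients in
`𝕜`. -/
inductive TE (ι 𝕜 : Type) : Type
  | var (i : ι) : TE ι 𝕜
  | const (q : 𝕜) : TE ι 𝕜
  | add (a b : TE ι 𝕜) : TE ι 𝕜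
  | mul (a b : TE ι 𝕜) : TE ι 𝕜
  | tr (a : TE ι 𝕜) : TE ι 𝕜
  deriving Countable

namespace TE

variable {ι 𝕜 : Type} [Field 𝕜]

/-- Evaluation of a trace polynomial in a ring `D` with a trace map `t : D → D`. -/
def eval {D : Type*} [Ring D] (c : 𝕜 →+* D) (t : D → D) (u : ι → D) : TE ι 𝕜 → D
  | .var i => u i
  | .const q => c q
  | .add a b => eval c t u a + eval c t u b
  | .mul a b => eval c t u a * eval c t u b
  | .tr a => t (eval c t u a)

variable {D : Type*} [Ring D] (c : 𝕜 →+* D) (t : D → D) (u : ι → D)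

/-- The subring of values. -/
def values : Subring D where
  carrier := Set.range (eval c t u)
  mul_mem' := by
    rintro _ _ ⟨p, rfl⟩ ⟨q, rfl⟩
    exact ⟨.mul p q, rfl⟩
  one_mem' := ⟨.const 1, map_one c⟩
  add_mem' := by
    rintro _ _ ⟨p, rfl⟩ ⟨q, rfl⟩
    exact ⟨.add p q, rfl⟩
  zero_mem' := ⟨.const 0, map_zero c⟩
  neg_mem' := by
    rintro _ ⟨p, rfl⟩
    refine ⟨.mul (.const (-1)) p, ?_⟩
    change c (-1) * _ = _
    rw [map_neg, map_one, neg_one_mul]

lemma tr_mem_values {a : D} (ha : a ∈ values c t u) : t a ∈ values c t u := by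
  obtain ⟨p, rfl⟩ := ha
  exact ⟨.tr p, rfl⟩

/-- Evaluation is natural for ring homomorphisms compatible with the traces. -/
lemma map_eval {D' : Type*} [Ring D'] (t' : D' → D') (f : D →+* D')
    (hf : ∀ a, f (t a) = t' (f a)) (p : TE ι 𝕜) :
    f (eval c t u p) = eval (f.comp c) t' (fun i => f (u i)) p := by
  induction p with
  | var i => rfl
  | const q => rfl
  | add a b iha ihb => simp only [eval, map_add, iha, ihb]
  | mul a b iha ihb => simp only [eval, map_mul, iha, ihb]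
  | tr a iha => simp only [eval, hf, iha]

end TE

/-- exponents -/
def ex {ι 𝕜 : Type} : TE ι 𝕜 → ℕ
  | .var _ => 1
  | .const _ => 0
  | .add a b => ex a + ex b
  | .mul a b => ex a + ex b
  | .tr a => ex a

open P199H

variable {ι 𝕜 : Type} [Field 𝕜]

section

variable {K : ℕ} {R : Type*} [CommRing R] {s : Ix K → R} (c : 𝕜 →+* R)

/-- the homogenised trace expression -/
noncomputable def hz (σ : R) (u : ι → Tw K R s) : TE ι 𝕜 → Tw K R s
  | .var i => u i
  | .const q => algebraMap R _ (c q)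
  | .add a b => σ ^ ex b • hz σ u a + σ ^ ex a • hz σ u b
  | .mul a b => hz σ u a * hz σ u b
  | .tr a => algebraMap R _ (Tw.tau (hz σ u a))

theorem hz_hom (H : HomSys s) {δ : Ix K →₀ ℕ} (hq : ∀ q : 𝕜, H.Hm 0 (c q))
    {σ : R} (hσ : H.Hm δ σ) {u : ι → Tw K R s} (hu : ∀ i, H.TwH δ (u i)) (e : TE ι 𝕜) :
    H.TwH (ex e • δ) (hz c σ u e) := by
  have hpow : ∀ n : ℕ, H.Hm (n • δ) (σ ^ n) := by
    intro n
    induction n with
    | zero => rw [pow_zero, zero_smul]; exact H.one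
    | succ n ih => rw [pow_succ, succ_nsmul]; exact H.mul ih hσ
  induction e with
  | var i => simpa [hz, ex] using hu i
  | const q =>
    have := HomSys.TwH.algebraMap (H := H) (hq q)
    simpa [hz, ex] using this
  | add a b iha ihb =>
    have h1 := HomSys.TwH.smul (hpow (ex b)) iha
    have h2 := HomSys.TwH.smul (hpow (ex a)) ihb
    rw [← add_smul] at h1 h2
    rw [add_comm (ex b) (ex a)] at h1
    exact h1.add h2
  | mul a b iha ihb =>
    have h1 := iha.mul ihb
    rw [← add_smul] at h1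
    exact h1
  | tr a iha =>
    exact HomSys.TwH.algebraMap iha.tau

theorem map_hz {R' : Type*} [CommRing R'] {s' : Ix K → R'} (φ : R →+* R')
    (hs : ∀ i, φ (s i) = s' i) (σ : R) (u : ι → Tw K R s) (e : TE ι 𝕜) :
    Tw.map φ hs (hz c σ u e) = hz (φ.comp c) (φ σ) (fun i => Tw.map φ hs (u i)) e := by
  induction e with
  | var i => rfl
  | const q =>
    simp only [hz]
    rw [Tw.map_algebraMap]
    rfl
  | add a b iha ihb =>
    simp only [hz]
    rw [map_add, Tw.map_smul, Tw.map_smul, iha, ihb, map_pow, map_pow]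
  | mul a b iha ihb =>
    simp only [hz]
    rw [map_mul, iha, ihb]
  | tr a iha =>
    simp only [hz]
    rw [Tw.map_algebraMap, ← Tw.tau_map φ hs, iha]

theorem hz_eval (σ : R) (u : ι → Tw K R s) (e : TE ι 𝕜) :
    hz c σ (fun i => σ • u i) e =
      σ ^ ex e • TE.eval ((algebraMap R (Tw K R s)).comp c)
        (fun w => algebraMap R (Tw K R s) (Tw.tau w)) u e := by
  induction e with
  | var i => simp [hz, ex, TE.eval]
  | const q =>
    simp only [hz, ex, TE.eval, pow_zero, one_smul]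
    rfl
  | add a b iha ihb =>
    simp only [hz, ex, TE.eval]
    rw [iha, ihb, smul_smul, smul_smul, smul_add, ← pow_add, ← pow_add, add_comm (ex b)]
  | mul a b iha ihb =>
    simp only [hz, ex, TE.eval]
    rw [iha, ihb, smul_mul_assoc, mul_smul_comm, smul_smul, ← pow_add]
  | tr a iha =>
    simp only [hz, ex, TE.eval]
    rw [iha, map_smul, smul_eq_mul, map_mul, Algebra.smul_def]

end

section S0

variable {K : ℕ}

/-- The variables: the coordinates of the generators, and `s_i`. -/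
abbrev Jm (ι : Type) (K : ℕ) : Type := (ι × Gam K) ⊕ Ix K

/-- The weights of the variables. -/
noncomputable def wm : Jm ι K → (Ix K →₀ ℕ) :=
  Sum.elim (fun p => D0 - gval p.2) (fun i => Finsupp.single i 2)

theorem wm_ne_zero (hK : 0 < K) (j : Jm ι K) : wm j ≠ 0 := by
  rcases j with p | i
  · have := smul_D0_sub_ne_zero p.2 (le_refl 1) hK
    rwa [one_smul] at this
  · intro h
    have := DFunLike.congr_fun h i
    simp [wm] at this

theorem card_Jm [Fintype ι] :
    Fintype.card (Jm ι K) = Fintype.card ι * 2 ^ (2 * K) + 2 * K := by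
  simp only [Fintype.card_sum, Fintype.card_prod, Tw.card_Gam, Fintype.card_fin]
  ring

/-- The variables `s_i`. -/
noncomputable def sm (i : Ix K) : MvPolynomial (Jm ι K) 𝕜 := MvPolynomial.X (Sum.inr i)

/-- The generic elements. -/
noncomputable def gen (i : ι) : Tw K (MvPolynomial (Jm ι K) 𝕜) sm :=
  fun g => MvPolynomial.X (Sum.inl (i, g))

/-- The product of all `s_i`. -/
noncomputable def sig : MvPolynomial (Jm ι K) 𝕜 := ∏ i : Ix K, sm i

/-- the homogeneity system of the base ring -/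
noncomputable def Hs (ι 𝕜 : Type) [Field 𝕜] (K : ℕ) :
    HomSys (K := K) (sm : Ix K → MvPolynomial (Jm ι K) 𝕜) :=
  polyHomSys wm Sum.inr (fun _ => rfl)

theorem Hs_Hm (d : Ix K →₀ ℕ) (p : MvPolynomial (Jm ι K) 𝕜) :
    (Hs ι 𝕜 K).Hm d p ↔ MvPolynomial.IsWeightedHomogeneous wm p d := Iff.rfl

theorem sig_hom : (Hs ι 𝕜 K).Hm D0 sig := by
  rw [D0_eq_sum]
  exact (Hs ι 𝕜 K).prod _ _ _ fun i _ => (Hs ι 𝕜 K).s_hom i

theorem gen_hom (i : ι) : (Hs ι 𝕜 K).TwH D0 (gen i) := by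
  intro g
  right
  refine ⟨D0 - gval g, ?_, ?_⟩
  · have := gval_le_smul_D0 g (le_refl 1)
    rw [one_smul] at this
    exact tsub_add_cancel_of_le this
  · rw [Hs_Hm]
    exact MvPolynomial.isWeightedHomogeneous_X 𝕜 wm (Sum.inl (i, g))

/-- the homogenised trace expression, with exponent at least one -/
noncomputable def Fe (K : ℕ) (e : TE ι 𝕜) : Tw K (MvPolynomial (Jm ι K) 𝕜) sm :=
  (sig : MvPolynomial (Jm ι K) 𝕜) • hz MvPolynomial.C sig gen e

theorem Fe_hom (e : TE ι 𝕜) : (Hs ι 𝕜 K).TwH ((ex e + 1) • D0) (Fe K e) := by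
  have h := hz_hom MvPolynomial.C (Hs ι 𝕜 K) (δ := D0)
    (fun q => by
      rw [Hs_Hm]
      exact MvPolynomial.isWeightedHomogeneous_C wm q)
    sig_hom gen_hom e
  have := HomSys.TwH.smul sig_hom h
  rwa [← succ_nsmul'] at this

theorem Fe_comp (e : TE ι 𝕜) (g : Gam K) :
    MvPolynomial.IsWeightedHomogeneous wm (Fe K e g) ((ex e + 1) • D0 - gval g) := by
  rcases Fe_hom e g with h | ⟨d, hd, h⟩
  · rw [h]
    exact MvPolynomial.isWeightedHomogeneous_zero 𝕜 wm _
  · rw [Hs_Hm] at h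
    rw [← hd, add_tsub_cancel_right]
    exact h

/-- the substitution `z_g ↦ (Fe e)_g`, `s_i ↦ s_i` -/
noncomputable def psi (e : TE ι 𝕜) : Jz K → MvPolynomial (Jm ι K) 𝕜 :=
  Sum.elim (fun g => Fe K e g.1) sm

theorem psi_hom (e : TE ι 𝕜) (j : Jz K) :
    MvPolynomial.IsWeightedHomogeneous wm (psi e j) (wz (ex e + 1) j) := by
  rcases j with g | i
  · exact Fe_comp e g.1
  · exact MvPolynomial.isWeightedHomogeneous_X 𝕜 wm (Sum.inr i)

theorem aeval_psi_sz (e : TE ι 𝕜) (i : Ix K) :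
    (MvPolynomial.aeval (psi e) : MvPolynomial (Jz K) 𝕜 →ₐ[𝕜] MvPolynomial (Jm ι K) 𝕜).toRingHom
      (P199K.sz i) = sm i := by
  simp [P199K.sz, psi]

theorem map_zgen (e : TE ι 𝕜) :
    Tw.map (MvPolynomial.aeval (psi e) :
      MvPolynomial (Jz K) 𝕜 →ₐ[𝕜] MvPolynomial (Jm ι K) 𝕜).toRingHom (aeval_psi_sz e)
        P199K.zgen =
      Fe K e - algebraMap (MvPolynomial (Jm ι K) 𝕜) _ (Tw.tau (Fe K e)) := by
  ext g
  rw [Tw.map_apply, Tw.sub_apply, Tw.algebraMap_apply]
  by_cases hg : g = 0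
  · subst hg
    rw [P199K.zgen_zero, map_zero, if_pos rfl, Tw.tau_apply, sub_self]
  · rw [P199K.zgen_apply hg, if_neg hg, sub_zero]
    simp [psi]

/-- the generators in the specialisation `φ` -/
noncomputable def gens {L : Type} [Field L] (φ : MvPolynomial (Jm ι K) 𝕜 →+* L) (i : ι) :
    Tw K L (fun i => φ (sm i)) := (φ sig)⁻¹ • Tw.map φ (fun _ => rfl) (gen i)

/-- evaluation of `Fe` in a field -/
theorem map_Fe (e : TE ι 𝕜) {L : Type} [Field L]
    (φ : MvPolynomial (Jm ι K) 𝕜 →+* L) (hσ : φ sig ≠ 0) :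
    Tw.map φ (fun _ => rfl) (Fe K e) = φ sig ^ (ex e + 1) •
      TE.eval ((algebraMap L (Tw K L (fun i => φ (sm i)))).comp (φ.comp MvPolynomial.C))
        (fun v => algebraMap L (Tw K L (fun i => φ (sm i))) (Tw.tau v)) (gens φ) e := by
  have h1 := hz_eval (φ.comp MvPolynomial.C) (φ sig) (gens φ) e
  have h2 : (fun i => φ sig • gens φ i) = fun i => Tw.map φ (fun _ => rfl) (gen i) :=
    funext fun i => smul_inv_smul₀ hσ _
  rw [h2] at h1
  rw [pow_succ', mul_smul, ← h1, Fe, Tw.map_smul, map_hz]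

/-- If the minors of `1, z, …, z^d` are killed by `φ` after the substitution, then the value of
the trace polynomial satisfies a relation of degree `≤ d`. -/
theorem polyRel_of_minors (e : TE ι 𝕜) (d : ℕ) {L : Type} [Field L]
    (φ : MvPolynomial (Jm ι K) 𝕜 →+* L) (hσ : φ sig ≠ 0)
    (h : ∀ f : Fin (d + 1) → Gam K,
      φ ((MvPolynomial.aeval (psi e) : MvPolynomial (Jz K) 𝕜 →ₐ[𝕜] MvPolynomial (Jm ι K) 𝕜)
        (Matrix.of fun a b : Fin (d + 1) =>
          (P199K.zgen ^ (b : ℕ) : Tw K _ P199K.sz) (f a)).det) = 0) :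
    PolyRel L d (TE.eval
      ((algebraMap L (Tw K L (fun i => φ (sm i)))).comp (φ.comp MvPolynomial.C))
      (fun v => algebraMap L (Tw K L (fun i => φ (sm i))) (Tw.tau v)) (gens φ) e) := by
  have h1 := map_Fe e φ hσ
  apply PolyRel.of_smul (pow_ne_zero (ex e + 1) hσ)
  rw [← h1]
  apply PolyRel.of_sub (φ (Tw.tau (Fe K e)))
  set ψ : MvPolynomial (Jz K) 𝕜 →+* MvPolynomial (Jm ι K) 𝕜 :=
    (MvPolynomial.aeval (psi e) : MvPolynomial (Jz K) 𝕜 →ₐ[𝕜] MvPolynomial (Jm ι K) 𝕜).toRingHom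
    with hψ
  have h2 : Tw.map φ (fun _ => rfl) (Fe K e) - algebraMap L (Tw K L (fun i => φ (sm i)))
      (φ (Tw.tau (Fe K e))) = Tw.map (φ.comp ψ)
        (fun i => by rw [RingHom.comp_apply, hψ, aeval_psi_sz]) P199K.zgen := by
    have h3 := congrArg (Tw.map φ (s' := fun i => φ (sm i)) (fun _ => rfl)) (map_zgen (K := K) e)
    rw [map_sub, Tw.map_algebraMap] at h3
    rw [← h3]
    rfl
  rw [h2]
  set z' : Tw K L (fun i => φ (sm i)) := Tw.map (φ.comp ψ)
        (fun i => by rw [RingHom.comp_apply, hψ, aeval_psi_sz]) P199K.zgen with hz'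
  obtain ⟨c, hc0, hc⟩ := dep_of_minors (L := L) (G := Gam K) (n := d + 1)
    (fun b g => (z' ^ (b : ℕ)) g) (by
      intro f
      rw [← h f]
      change _ = (φ.comp ψ) _
      rw [RingHom.map_det]
      congr 1
      ext a b
      simp only [Matrix.of_apply, RingHom.mapMatrix_apply, Matrix.map_apply]
      rw [hz', ← map_pow]
      rfl)
  rw [polyRel_iff]
  refine ⟨c, hc0, ?_⟩
  ext g
  rw [Tw.sum_apply, Tw.zero_apply, ← hc g]
  rfl

end S0

section L8

open MvPolynomial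

variable {K : ℕ}

/-- The locus of degree at most `2 ^ a`, for all `a ≤ K` (also `a = 0`). -/
theorem L6all (h𝕜 : (2 : 𝕜) ≠ 0) (a r : ℕ) (haK : a ≤ K) (hr : 1 ≤ r) :
    ∃ Ps : Ideal (MvPolynomial (Jz K) 𝕜), Ps.IsPrime ∧ HomI (wz r) Ps ∧
    ¬ (2 : MvPolynomial (Ix K) ℤ) ∣ (P199K.polySys (wz r) (wz_ne_zero hr)).LC Ps ∧
    (P199K.polySys (wz r) (wz_ne_zero hr)).c Ps ≤ 2 ^ (2 * K - a) ∧
    ∀ f : Fin (2 ^ a + 1) → Gam K,
      (Matrix.of fun i j : Fin (2 ^ a + 1) =>
        (P199K.zgen ^ (j : ℕ) : Tw K _ P199K.sz) (f i)).det ∈ Ps := by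
  classical
  rcases Nat.eq_zero_or_pos a with rfl | ha
  swap
  · exact P199K.L6Stmt_of h𝕜 (P199K.l5Stmt K) a r ha haK hr
  set H := P199K.polySys (𝕜 := 𝕜) (wz (K := K) r) (wz_ne_zero hr) with hH
  have hbot : H.HI ⊥ := by
    intro p hp m
    rw [Ideal.mem_bot] at hp ⊢
    rw [hp, map_zero]
  have hX : ∀ j, H.Hom (X j) (wz r j) := fun j => isWeightedHomogeneous_X 𝕜 (wz r) j
  have hK : H.K ⊥ = 1 := P199K.kp_bot _ _
  refine ⟨vI (sL K 0), vI_isPrime _, H.HI_vI (wz r) hbot hX _,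
    not_dvd_of_rho (P199K.LC_nn H hr hbot hX hK), ?_, fun f => ?_⟩
  · rw [H.c_vI (wz r) (wz_ne_zero hr) hbot hX hK, Nat.sub_zero, ← Tw.card_Gam]
    have h1 : sL K 0 ⊆ Finset.univ.map (Function.Embedding.inl : _ ↪ Jz K) := by
      intro j hj
      obtain ⟨g, -, rfl⟩ := mem_sL.1 hj
      exact Finset.mem_map_of_mem _ (Finset.mem_univ g)
    refine (Finset.card_le_card h1).trans ?_
    rw [Finset.card_map, Finset.card_univ]
    exact Fintype.card_subtype_le _
  · have hz : ∀ g : Gam K, (P199K.zgen : Tw K (MvPolynomial (Jz K) 𝕜) P199K.sz) g ∈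
        (vI (sL K 0) : Ideal (MvPolynomial (Jz K) 𝕜)) := by
      intro g
      by_cases hg : g = 0
      · rw [hg, P199K.zgen_zero]
        exact zero_mem _
      · rw [P199K.zgen_apply hg]
        refine X_mem_vI (inl_mem_sL.2 fun h => hg ?_)
        funext i
        rcases i with i | i
        · exact h.2 i (Nat.zero_le _)
        · exact h.1 i
    rw [← Ideal.Quotient.eq_zero_iff_mem, RingHom.map_det]
    refine Matrix.det_eq_zero_of_column_eq_zero (Fin.last _) fun i => ?_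
    simp only [Matrix.of_apply, RingHom.mapMatrix_apply, Matrix.map_apply, Fin.val_last, pow_zero,
      pow_one]
    exact Ideal.Quotient.eq_zero_iff_mem.2 (hz _)

theorem L8ind [Fintype ι] (h𝕜 : (2 : 𝕜) ≠ 0) (hK : 0 < K) {κ : Type} (Φ : κ → TE ι 𝕜)
    (a : κ → ℕ) (S : Finset κ) (hm : ∀ j ∈ S, a j ≤ K) :
    ∃ P : Ideal (MvPolynomial (Jm ι K) 𝕜), P.IsPrime ∧ HomI wm P ∧
      ¬ (2 : MvPolynomial (Ix K) ℤ) ∣ (P199K.polySys wm (wm_ne_zero hK)).LC P ∧
      (P199K.polySys wm (wm_ne_zero hK)).c P ≤ ∑ j ∈ S, 2 ^ (2 * K - a j) ∧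
      ∀ j ∈ S, ∀ f : Fin (2 ^ a j + 1) → Gam K,
        (aeval (psi (Φ j)) : MvPolynomial (Jz K) 𝕜 →ₐ[𝕜] MvPolynomial (Jm ι K) 𝕜)
          (Matrix.of fun p q : Fin (2 ^ a j + 1) =>
            (P199K.zgen ^ (q : ℕ) : Tw K _ P199K.sz) (f p)).det ∈ P := by
  classical
  induction S using Finset.induction_on with
  | empty =>
    refine ⟨⊥, Ideal.isPrime_bot, homI_bot wm, ?_, ?_, ?_⟩
    · rw [P199K.polySys_LC_bot]
      exact fun h => two_prime.not_unit (isUnit_of_dvd_one h)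
    · rw [P199K.polySys_c_bot]
      exact Nat.zero_le _
    · intro j hj
      exact absurd hj (Finset.notMem_empty _)
  | insert m S hmS ih =>
    obtain ⟨P, h1, h2, h3, h4, h5⟩ := ih fun j hj => hm j (Finset.mem_insert_of_mem hj)
    obtain ⟨Ps, g1, g2, g3, g4, g5⟩ := L6all h𝕜 (a m) (ex (Φ m) + 1)
      (hm m (Finset.mem_insert_self _ _)) (Nat.le_add_left 1 _)
    obtain ⟨P', k1, k2, k3, k4, k5, k6⟩ := P199K.lemmaD wm (wm_ne_zero hK) (wz (ex (Φ m) + 1))
      (wz_ne_zero (Nat.le_add_left 1 _)) P h1 h2 h3 Ps g1 g2 g3 (psi (Φ m)) (psi_hom (Φ m))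
    refine ⟨P', k1, k2, k3, ?_, ?_⟩
    · rw [Finset.sum_insert hmS, add_comm]
      exact k6.trans (add_le_add h4 g4)
    · intro j hj f
      rcases Finset.mem_insert.1 hj with rfl | hj
      · exact k5 _ (g5 f)
      · exact k4 (h5 j hj f)

end L8

end P199G
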